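import Mathlib

/-!
# The geometry of the collar (P148, T line, row GEO)

Macroscopic coordinates: the ring of `4 (2 M + 1)` grid cells of side `a = 1 / M` around the square
`[-1,1] × [-1,1]`, in counterclockwise order, the gates (middles of the common edges of consecutive
cells), the gate boxes and the displacements. All the functions of the index `k : ℕ` are periodic
with period `4 (2 M + 1)`.
-/

open Complex Set

namespace Vale.Agent.P148.R2.N

/-- The open square with centre `z` and half side `r`. -/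
def csq (z : ℂ) (r : ℝ) : Set ℂ := {w | |w.re - z.re| < r ∧ |w.im - z.im| < r}

/-- The mesh of the ring. -/
noncomputable def ms (M : ℕ) : ℝ := 1 / M

/-- The number of cells of the ring. -/
def nc (M : ℕ) : ℕ := 4 * (2 * M + 1)

/-- The centre of the `k`-th cell. -/
noncomputable def cellC (M k : ℕ) : ℂ :=
  I ^ (k / (2 * M + 1)) *
    ⟨1 + ms M / 2, -1 + ms M / 2 + (k % (2 * M + 1) : ℕ) * ms M⟩

/-- The `k`-th gate: the middle of the common edge of the cells `k - 1` and `k`. -/
noncomputable def gateC (M k : ℕ) : ℂ :=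
  I ^ (k / (2 * M + 1)) * ⟨1 + ms M / 2, -1 + (k % (2 * M + 1) : ℕ) * ms M⟩

/-- The `k`-th cell (open square of side `a`). -/
noncomputable def cell (M k : ℕ) : Set ℂ := csq (cellC M k) (ms M / 2)

/-- The `k`-th gate box (open square of half side `a / 8`). -/
noncomputable def gbox (M k : ℕ) : Set ℂ := csq (gateC M k) (ms M / 8)

/-- The displacement from gate `k` to gate `k + 1`. -/
noncomputable def disp (M k : ℕ) : ℂ :=
  I ^ (k / (2 * M + 1)) *
    (if k % (2 * M + 1) = 2 * M then ⟨-(ms M / 2), ms M / 2⟩ else ⟨0, ms M⟩)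

variable {M k l : ℕ}

theorem ms_pos (hM : 0 < M) : 0 < ms M := by
  unfold ms; positivity

theorem ms_le_one : ms M ≤ 1 := by
  unfold ms
  rcases Nat.eq_zero_or_pos M with rfl | h
  · simp
  · exact (div_le_one (by exact_mod_cast h)).2 (by exact_mod_cast h)

theorem M_mul_ms (hM : 0 < M) : (M : ℝ) * ms M = 1 := by
  unfold ms; field_simp

theorem mem_csq {z w : ℂ} {r : ℝ} : w ∈ csq z r ↔ |w.re - z.re| < r ∧ |w.im - z.im| < r := Iff.rfl

theorem csq_I {z w : ℂ} {r : ℝ} : I * w ∈ csq (I * z) r ↔ w ∈ csq z r := by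
  simp only [mem_csq, mul_re, mul_im, I_re, I_im, zero_mul, one_mul, zero_sub, zero_add]
  rw [show -w.im - -z.im = -(w.im - z.im) by ring, abs_neg]
  exact and_comm

theorem csq_I_pow (s : ℕ) {z w : ℂ} {r : ℝ} : I ^ s * w ∈ csq (I ^ s * z) r ↔ w ∈ csq z r := by
  induction s with
  | zero => simp
  | succ s ih => rw [pow_succ', mul_assoc, mul_assoc, csq_I, ih]

theorem I_pow_mul_self_pow (s : ℕ) (w : ℂ) : I ^ s * ((-I) ^ s * w) = w := by
  rw [← mul_assoc, ← mul_pow]
  simp

/-- Index of the next gate: same side. -/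
theorem gateC_succ (hM : 0 < M) (k : ℕ) : gateC M (k + 1) = gateC M k + disp M k := by
  have h0 : 0 < 2 * M + 1 := by omega
  have hM1 := M_mul_ms hM
  unfold gateC disp
  by_cases h : k % (2 * M + 1) = 2 * M
  · rw [if_pos h]
    have e1 : (k + 1) % (2 * M + 1) = 0 := by
      rw [Nat.add_mod, h]
      rcases Nat.eq_zero_or_pos M with rfl | h'
      · omega
      · rw [Nat.mod_eq_of_lt (show 1 < 2 * M + 1 by omega)]
        simp
    have e2 : (k + 1) / (2 * M + 1) = k / (2 * M + 1) + 1 := by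
      have := Nat.div_add_mod k (2 * M + 1)
      rw [h] at this
      have e3 : k + 1 = (2 * M + 1) * (k / (2 * M + 1) + 1) := by rw [mul_add, mul_one]; omega
      conv_lhs => rw [e3]
      exact Nat.mul_div_cancel_left _ h0
    rw [e1, e2, h, pow_succ, mul_assoc, ← mul_add]
    congr 1
    apply Complex.ext
    · simp
    · simp
      linarith
  · rw [if_neg h]
    have hlt := Nat.mod_lt k h0
    have e1 : (k + 1) % (2 * M + 1) = k % (2 * M + 1) + 1 := by
      rw [Nat.add_mod, Nat.mod_eq_of_lt (a := 1) (by omega), Nat.mod_eq_of_lt]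
      omega
    have e2 : (k + 1) / (2 * M + 1) = k / (2 * M + 1) := by
      have h1 := Nat.div_add_mod k (2 * M + 1)
      have h2 := Nat.div_add_mod (k + 1) (2 * M + 1)
      rw [e1] at h2
      have h3 : (2 * M + 1) * ((k + 1) / (2 * M + 1)) = (2 * M + 1) * (k / (2 * M + 1)) := by omega
      exact Nat.eq_of_mul_eq_mul_left h0 h3
    rw [e1, e2, ← mul_add]
    congr 1
    apply Complex.ext
    · simp
    · simp; ring

theorem gateC_add_sum (hM : 0 < M) (i n : ℕ) :
    gateC M (i + n) = gateC M i + ∑ m ∈ Finset.range n, disp M (i + m) := by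
  induction n with
  | zero => simp
  | succ n ih => rw [← add_assoc, gateC_succ hM, ih, Finset.sum_range_succ, add_assoc]

theorem sum_disp (hM : 0 < M) {i j : ℕ} (h : i ≤ j) :
    ∑ m ∈ Finset.Ico i j, disp M m = gateC M j - gateC M i := by
  rw [Finset.sum_Ico_eq_sum_range]
  have := gateC_add_sum hM i (j - i)
  rw [Nat.add_sub_cancel' h] at this
  rw [this]; ring

theorem div_add_nc (M k : ℕ) : (k + nc M) / (2 * M + 1) = k / (2 * M + 1) + 4 := by
  unfold nc
  rw [show k + 4 * (2 * M + 1) = k + (2 * M + 1) * 4 by ring]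
  exact Nat.add_mul_div_left _ _ (by omega)

theorem mod_add_nc (M k : ℕ) : (k + nc M) % (2 * M + 1) = k % (2 * M + 1) := by
  unfold nc
  rw [show k + 4 * (2 * M + 1) = k + (2 * M + 1) * 4 by ring]
  exact Nat.add_mul_mod_self_left _ _ _

theorem I_pow_add_four (s : ℕ) : (I : ℂ) ^ (s + 4) = I ^ s := by
  rw [pow_add, I_pow_four, mul_one]

theorem gateC_add_nc (M k : ℕ) : gateC M (k + nc M) = gateC M k := by
  unfold gateC; rw [div_add_nc, mod_add_nc, I_pow_add_four]

theorem cellC_add_nc (M k : ℕ) : cellC M (k + nc M) = cellC M k := by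
  unfold cellC; rw [div_add_nc, mod_add_nc, I_pow_add_four]

theorem disp_add_nc (M k : ℕ) : disp M (k + nc M) = disp M k := by
  unfold disp; rw [div_add_nc, mod_add_nc, I_pow_add_four]

theorem cell_add_nc (M k : ℕ) : cell M (k + nc M) = cell M k := by
  unfold cell; rw [cellC_add_nc]

theorem gbox_add_nc (M k : ℕ) : gbox M (k + nc M) = gbox M k := by
  unfold gbox; rw [gateC_add_nc]

theorem norm_disp_le (hM : 0 < M) (k : ℕ) : ‖disp M k‖ ≤ ms M := by
  have h0 := ms_pos hM
  unfold disp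
  rw [norm_mul, norm_pow, norm_I, one_pow, one_mul]
  split_ifs
  · refine (Complex.norm_le_abs_re_add_abs_im _).trans ?_
    simp only [abs_neg]
    rw [abs_of_pos (by positivity)]
    linarith
  · refine (Complex.norm_le_abs_re_add_abs_im _).trans ?_
    simp only [abs_zero, zero_add]
    rw [abs_of_pos h0]

/-! ### the half strip which contains the cells of one side -/

/-- The strip of the cells of side `0`. -/
noncomputable def strip (M : ℕ) : Set ℂ :=
  {w | (1 < w.re ∧ w.re < 1 + ms M) ∧ (-1 < w.im ∧ w.im < 1 + ms M)}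

theorem div_lt_four (hk : k < nc M) : k / (2 * M + 1) < 4 := by
  unfold nc at hk
  exact Nat.div_lt_of_lt_mul (by rw [mul_comm]; exact hk)

theorem mod_le (M k : ℕ) : k % (2 * M + 1) ≤ 2 * M := by
  have := Nat.mod_lt k (show 0 < 2 * M + 1 by omega)
  omega

theorem mod_mul_le (hM : 0 < M) (k : ℕ) : ((k % (2 * M + 1) : ℕ) : ℝ) * ms M ≤ 2 := by
  have h1 : ((k % (2 * M + 1) : ℕ) : ℝ) ≤ 2 * M := by exact_mod_cast mod_le M k
  have h2 := M_mul_ms hM
  have h3 := ms_pos hM
  nlinarith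

/-- Coordinates in the cell. -/
theorem mem_cell_iff {w : ℂ} : I ^ (k / (2 * M + 1)) * w ∈ cell M k ↔
    (1 < w.re ∧ w.re < 1 + ms M) ∧
      (-1 + (k % (2 * M + 1) : ℕ) * ms M < w.im ∧
        w.im < -1 + (k % (2 * M + 1) : ℕ) * ms M + ms M) := by
  unfold cell cellC
  rw [csq_I_pow, mem_csq, abs_lt, abs_lt]
  constructor
  · rintro ⟨⟨h1, h2⟩, h3, h4⟩
    simp only at h1 h2 h3 h4
    refine ⟨⟨by linarith, by linarith⟩, by linarith, by linarith⟩
  · rintro ⟨⟨h1, h2⟩, h3, h4⟩
    refine ⟨⟨?_, ?_⟩, ?_, ?_⟩ <;> simp only <;> linarith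

theorem mem_gbox_iff {w : ℂ} : I ^ (k / (2 * M + 1)) * w ∈ gbox M k ↔
    (1 + 3 * ms M / 8 < w.re ∧ w.re < 1 + 5 * ms M / 8) ∧
      (-1 + (k % (2 * M + 1) : ℕ) * ms M - ms M / 8 < w.im ∧
        w.im < -1 + (k % (2 * M + 1) : ℕ) * ms M + ms M / 8) := by
  unfold gbox gateC
  rw [csq_I_pow, mem_csq, abs_lt, abs_lt]
  constructor
  · rintro ⟨⟨h1, h2⟩, h3, h4⟩
    simp only at h1 h2 h3 h4
    refine ⟨⟨by linarith, by linarith⟩, by linarith, by linarith⟩
  · rintro ⟨⟨h1, h2⟩, h3, h4⟩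
    refine ⟨⟨?_, ?_⟩, ?_, ?_⟩ <;> simp only <;> linarith

theorem exists_eq_I_pow_mul (s : ℕ) (z : ℂ) : ∃ w, z = I ^ s * w :=
  ⟨(-I) ^ s * z, (I_pow_mul_self_pow s z).symm⟩

theorem cell_subset_strip (hM : 0 < M) {w : ℂ} (h : I ^ (k / (2 * M + 1)) * w ∈ cell M k) :
    w ∈ strip M := by
  have h2 := mod_mul_le hM k
  have h3 := ms_pos hM
  have h4 : (0 : ℝ) ≤ ((k % (2 * M + 1) : ℕ) : ℝ) * ms M := by positivity
  obtain ⟨⟨a1, a2⟩, a3, a4⟩ := mem_cell_iff.1 h
  exact ⟨⟨a1, a2⟩, by linarith, by linarith⟩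

theorem strip_rot {w : ℂ} (hM : 0 < M) (hw : w ∈ strip M) {s : ℕ} (hs : s < 4)
    (h : I ^ s * w ∈ strip M) : s = 0 := by
  have h3 := ms_pos hM
  obtain ⟨⟨a1, a2⟩, a3, a4⟩ := hw
  obtain ⟨⟨b1, b2⟩, b3, b4⟩ := h
  interval_cases s
  · rfl
  · simp only [pow_one, mul_re, mul_im, I_re, I_im] at b1 b2 b3 b4
    linarith
  · simp only [I_sq, neg_mul, one_mul, neg_re, neg_im] at b1 b2 b3 b4
    linarith
  · rw [show (I : ℂ) ^ 3 = -I by rw [pow_succ, I_sq]; ring] at b1 b2 b3 b4
    simp only [neg_mul, mul_re, mul_im, I_re, I_im, neg_re, neg_im] at b1 b2 b3 b4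
    linarith

/-- Points of two strips: the sides agree. -/
theorem side_eq (hM : 0 < M) {s t : ℕ} (hs : s < 4) (ht : t < 4) {w w' : ℂ} (hw : w ∈ strip M)
    (hw' : w' ∈ strip M) (h : (I : ℂ) ^ s * w = I ^ t * w') : s = t := by
  rcases le_total s t with hst | hst
  · have e : w = I ^ (t - s) * w' := by
      have h1 : (I : ℂ) ^ s * w = I ^ s * (I ^ (t - s) * w') := by
        rw [h, ← mul_assoc, ← pow_add, Nat.add_sub_cancel' hst]
      exact mul_left_cancel₀ (pow_ne_zero _ I_ne_zero) h1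
    have := strip_rot hM hw' (s := t - s) (by omega) (e ▸ hw)
    omega
  · have e : w' = I ^ (s - t) * w := by
      have h1 : (I : ℂ) ^ t * w' = I ^ t * (I ^ (s - t) * w) := by
        rw [← h, ← mul_assoc, ← pow_add, Nat.add_sub_cancel' hst]
      exact mul_left_cancel₀ (pow_ne_zero _ I_ne_zero) h1
    have := strip_rot hM hw (s := s - t) (by omega) (e ▸ hw')
    omega

/-- The cells are pairwise disjoint. -/
theorem disjoint_cell (hM : 0 < M) (hk : k < nc M) (hl : l < nc M) (h : k ≠ l) :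
    Disjoint (cell M k) (cell M l) := by
  rw [Set.disjoint_left]
  intro z hz hz'
  obtain ⟨w, hw⟩ := exists_eq_I_pow_mul (k / (2 * M + 1)) z
  obtain ⟨w', hw'⟩ := exists_eq_I_pow_mul (l / (2 * M + 1)) z
  have h1 : I ^ (k / (2 * M + 1)) * w ∈ cell M k := hw ▸ hz
  have h2 : I ^ (l / (2 * M + 1)) * w' ∈ cell M l := hw' ▸ hz'
  have hs := side_eq hM (div_lt_four hk) (div_lt_four hl) (cell_subset_strip hM h1)
    (cell_subset_strip hM h2) (hw.symm.trans hw')
  have e : w = w' := by
    have h3 := hw.symm.trans hw'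
    rw [hs] at h3
    exact mul_left_cancel₀ (pow_ne_zero _ I_ne_zero) h3
  subst e
  obtain ⟨-, a3, a4⟩ := mem_cell_iff.1 h1
  obtain ⟨-, b3, b4⟩ := mem_cell_iff.1 h2
  have h0 := ms_pos hM
  have c1 : ((k % (2 * M + 1) : ℕ) : ℝ) < ((l % (2 * M + 1) : ℕ) : ℝ) + 1 := by
    by_contra hc; rw [not_lt] at hc
    have := mul_le_mul_of_nonneg_right hc h0.le
    linarith
  have c2 : ((l % (2 * M + 1) : ℕ) : ℝ) < ((k % (2 * M + 1) : ℕ) : ℝ) + 1 := by
    by_contra hc; rw [not_lt] at hc
    have := mul_le_mul_of_nonneg_right hc h0.le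
    linarith
  have c3 : k % (2 * M + 1) = l % (2 * M + 1) := by
    have d1 : k % (2 * M + 1) < l % (2 * M + 1) + 1 := by exact_mod_cast c1
    have d2 : l % (2 * M + 1) < k % (2 * M + 1) + 1 := by exact_mod_cast c2
    omega
  apply h
  rw [← Nat.div_add_mod k (2 * M + 1), ← Nat.div_add_mod l (2 * M + 1), hs, c3]

/-- The closed inner square. -/
def inner : Set ℂ := {z | |z.re| ≤ 1 ∧ |z.im| ≤ 1}

theorem mem_inner_I_pow (s : ℕ) {w : ℂ} : I ^ s * w ∈ inner ↔ w ∈ inner := by
  induction s with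
  | zero => simp
  | succ s ih =>
    rw [pow_succ', mul_assoc]
    refine Iff.trans ?_ ih
    simp only [inner, mem_ofPred_eq, mul_re, mul_im, I_re, I_im, zero_mul, one_mul, zero_sub,
      zero_add, abs_neg]
    exact and_comm

theorem disjoint_cell_inner (k : ℕ) : Disjoint (cell M k) inner := by
  rw [Set.disjoint_left]
  intro z hz hz'
  obtain ⟨w, rfl⟩ := exists_eq_I_pow_mul (k / (2 * M + 1)) z
  have h1 := (mem_cell_iff.1 hz).1.1
  have h2 := abs_le.1 ((mem_inner_I_pow _).1 hz').1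
  linarith

theorem disjoint_gbox_inner (hM : 0 < M) (k : ℕ) : Disjoint (gbox M k) inner := by
  rw [Set.disjoint_left]
  intro z hz hz'
  obtain ⟨w, rfl⟩ := exists_eq_I_pow_mul (k / (2 * M + 1)) z
  have h1 := (mem_gbox_iff.1 hz).1.1
  have h2 := abs_le.1 ((mem_inner_I_pow _).1 hz').1
  have := ms_pos hM
  linarith

/-- Two gate boxes are disjoint. -/
theorem gstrip_rot {c : ℝ} (hc : 0 ≤ c) {w : ℂ} (h1 : c < w.re) (h2 : -c < w.im) (h3 : w.im < c)
    {s : ℕ} (hs : s < 4) (h : c < (I ^ s * w).re) : s = 0 := by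
  interval_cases s
  · rfl
  · simp only [pow_one, mul_re, I_re, I_im] at h
    linarith
  · simp only [I_sq, neg_mul, one_mul, neg_re] at h
    linarith
  · rw [show (I : ℂ) ^ 3 = -I by rw [pow_succ, I_sq]; ring] at h
    simp only [neg_mul, mul_re, I_re, I_im, neg_re] at h
    linarith

theorem mod_mul_eq (hM : 0 < M) : ((2 * M : ℕ) : ℝ) * ms M = 2 := by
  push_cast
  have := M_mul_ms hM
  linarith

theorem disjoint_gbox (hM : 0 < M) (hk : k < nc M) (hl : l < nc M) (h : k ≠ l) :
    Disjoint (gbox M k) (gbox M l) := by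
  rw [Set.disjoint_left]
  intro z hz hz'
  obtain ⟨w, hw⟩ := exists_eq_I_pow_mul (k / (2 * M + 1)) z
  obtain ⟨w', hw'⟩ := exists_eq_I_pow_mul (l / (2 * M + 1)) z
  obtain ⟨⟨a1, a2⟩, a3, a4⟩ := mem_gbox_iff.1 (hw ▸ hz)
  obtain ⟨⟨b1, b2⟩, b3, b4⟩ := mem_gbox_iff.1 (hw' ▸ hz')
  have h0 := ms_pos hM
  have m1 := mod_mul_le hM k
  have m2 := mod_mul_le hM l
  have m3 : (0 : ℝ) ≤ ((k % (2 * M + 1) : ℕ) : ℝ) * ms M := by positivity
  have m4 : (0 : ℝ) ≤ ((l % (2 * M + 1) : ℕ) : ℝ) * ms M := by positivity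
  have hs : k / (2 * M + 1) = l / (2 * M + 1) := by
    have hk4 := div_lt_four hk
    have hl4 := div_lt_four hl
    have e0 := hw.symm.trans hw'
    rcases le_total (k / (2 * M + 1)) (l / (2 * M + 1)) with hst | hst
    · have e : w = I ^ (l / (2 * M + 1) - k / (2 * M + 1)) * w' := by
        have h1 : (I : ℂ) ^ (k / (2 * M + 1)) * w =
            I ^ (k / (2 * M + 1)) * (I ^ (l / (2 * M + 1) - k / (2 * M + 1)) * w') := by
          rw [e0, ← mul_assoc, ← pow_add, Nat.add_sub_cancel' hst]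
        exact mul_left_cancel₀ (pow_ne_zero _ I_ne_zero) h1
      have := gstrip_rot (c := 1 + 3 * ms M / 8) (by positivity) b1 (by linarith) (by linarith)
        (s := l / (2 * M + 1) - k / (2 * M + 1)) ((Nat.sub_le _ _).trans_lt hl4) (e ▸ a1)
      exact le_antisymm hst (Nat.sub_eq_zero_iff_le.1 this)
    · have e : w' = I ^ (k / (2 * M + 1) - l / (2 * M + 1)) * w := by
        have h1 : (I : ℂ) ^ (l / (2 * M + 1)) * w' =
            I ^ (l / (2 * M + 1)) * (I ^ (k / (2 * M + 1) - l / (2 * M + 1)) * w) := by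
          rw [← e0, ← mul_assoc, ← pow_add, Nat.add_sub_cancel' hst]
        exact mul_left_cancel₀ (pow_ne_zero _ I_ne_zero) h1
      have := gstrip_rot (c := 1 + 3 * ms M / 8) (by positivity) a1 (by linarith) (by linarith)
        (s := k / (2 * M + 1) - l / (2 * M + 1)) ((Nat.sub_le _ _).trans_lt hk4) (e ▸ b1)
      exact le_antisymm (Nat.sub_eq_zero_iff_le.1 this) hst
  have e : w = w' := by
    have h3 := hw.symm.trans hw'
    rw [hs] at h3
    exact mul_left_cancel₀ (pow_ne_zero _ I_ne_zero) h3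
  subst e
  have c1 : ((k % (2 * M + 1) : ℕ) : ℝ) < ((l % (2 * M + 1) : ℕ) : ℝ) + 1 := by
    by_contra hc; rw [not_lt] at hc
    have := mul_le_mul_of_nonneg_right hc h0.le
    linarith
  have c2 : ((l % (2 * M + 1) : ℕ) : ℝ) < ((k % (2 * M + 1) : ℕ) : ℝ) + 1 := by
    by_contra hc; rw [not_lt] at hc
    have := mul_le_mul_of_nonneg_right hc h0.le
    linarith
  have c3 : k % (2 * M + 1) = l % (2 * M + 1) := by
    have d1 : k % (2 * M + 1) < l % (2 * M + 1) + 1 := by exact_mod_cast c1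
    have d2 : l % (2 * M + 1) < k % (2 * M + 1) + 1 := by exact_mod_cast c2
    omega
  apply h
  rw [← Nat.div_add_mod k (2 * M + 1), ← Nat.div_add_mod l (2 * M + 1), hs, c3]

theorem div_add_one_of_ne (h : k % (2 * M + 1) ≠ 2 * M) :
    (k + 1) / (2 * M + 1) = k / (2 * M + 1) ∧
      (k + 1) % (2 * M + 1) = k % (2 * M + 1) + 1 := by
  have h0 : 0 < 2 * M + 1 := by omega
  have hlt := Nat.mod_lt k h0
  have e1 : (k + 1) % (2 * M + 1) = k % (2 * M + 1) + 1 := by
    rw [Nat.add_mod, Nat.mod_eq_of_lt (a := 1) (by omega), Nat.mod_eq_of_lt]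
    omega
  refine ⟨?_, e1⟩
  have h1 := Nat.div_add_mod k (2 * M + 1)
  have h2 := Nat.div_add_mod (k + 1) (2 * M + 1)
  rw [e1] at h2
  have h3 : (2 * M + 1) * ((k + 1) / (2 * M + 1)) = (2 * M + 1) * (k / (2 * M + 1)) := by omega
  exact Nat.eq_of_mul_eq_mul_left h0 h3

theorem div_add_one_of_eq (hM : 0 < M) (h : k % (2 * M + 1) = 2 * M) :
    (k + 1) / (2 * M + 1) = k / (2 * M + 1) + 1 ∧ (k + 1) % (2 * M + 1) = 0 := by
  have h0 : 0 < 2 * M + 1 := by omega
  have h1 := Nat.div_add_mod k (2 * M + 1)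
  rw [h] at h1
  have e3 : k + 1 = (2 * M + 1) * (k / (2 * M + 1) + 1) := by rw [mul_add, mul_one]; omega
  constructor
  · conv_lhs => rw [e3]
    exact Nat.mul_div_cancel_left _ h0
  · rw [e3]
    exact Nat.mul_mod_right _ _

/-- A gate box meets only the two cells next to its gate. -/
theorem gbox_cell (hM : 0 < M) (hk : k < nc M) (hl : l < nc M)
    (h : (gbox M l ∩ cell M k).Nonempty) : l = k ∨ l = (k + 1) % nc M := by
  obtain ⟨z, hz, hz'⟩ := h
  obtain ⟨w, hw⟩ := exists_eq_I_pow_mul (l / (2 * M + 1)) z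
  obtain ⟨w', hw'⟩ := exists_eq_I_pow_mul (k / (2 * M + 1)) z
  obtain ⟨⟨a1, a2⟩, a3, a4⟩ := mem_gbox_iff.1 (hw ▸ hz)
  have hst' : w' ∈ strip M := cell_subset_strip hM (hw' ▸ hz')
  obtain ⟨⟨b1, b2⟩, b3, b4⟩ := mem_cell_iff.1 (hw' ▸ hz')
  have h0 := ms_pos hM
  have m1 := mod_mul_le hM k
  have m2 := mod_mul_le hM l
  have m3 : (0 : ℝ) ≤ ((k % (2 * M + 1) : ℕ) : ℝ) * ms M := by positivity
  have hkl := div_lt_four hk
  have hll := div_lt_four hl
  have q1 := Nat.div_add_mod k (2 * M + 1)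
  have q2 := Nat.div_add_mod l (2 * M + 1)
  have hmk := mod_le M k
  have hml := mod_le M l
  have hnc : nc M = 4 * (2 * M + 1) := rfl
  by_cases hj : l % (2 * M + 1) = 0
  · -- a gate at the beginning of a side
    rw [hj] at a3 a4
    simp only [Nat.cast_zero, zero_mul, add_zero] at a3 a4
    have e0 := hw.symm.trans hw'
    rcases le_or_gt (l / (2 * M + 1)) (k / (2 * M + 1)) with hst | hst
    · have e : w = I ^ (k / (2 * M + 1) - l / (2 * M + 1)) * w' := by
        have h1 : (I : ℂ) ^ (l / (2 * M + 1)) * w =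
            I ^ (l / (2 * M + 1)) * (I ^ (k / (2 * M + 1) - l / (2 * M + 1)) * w') := by
          rw [e0, ← mul_assoc, ← pow_add, Nat.add_sub_cancel' hst]
        exact mul_left_cancel₀ (pow_ne_zero _ I_ne_zero) h1
      rw [e] at a1 a2 a3 a4
      have hd : k / (2 * M + 1) - l / (2 * M + 1) < 4 := (Nat.sub_le _ _).trans_lt hkl
      generalize hdd : k / (2 * M + 1) - l / (2 * M + 1) = d at a1 a2 a3 a4 hd
      interval_cases d
      · -- same side
        simp only [pow_zero, one_mul] at a1 a2 a3 a4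
        have c1 : ((k % (2 * M + 1) : ℕ) : ℝ) < 1 := by
          by_contra hc; rw [not_lt] at hc
          have := mul_le_mul_of_nonneg_right hc h0.le
          linarith
        have c2 : k % (2 * M + 1) = 0 := by
          have : k % (2 * M + 1) < 1 := by exact_mod_cast c1
          omega
        left
        have hs : k / (2 * M + 1) = l / (2 * M + 1) :=
          le_antisymm (Nat.sub_eq_zero_iff_le.1 hdd) hst
        rw [hj, ← hs] at q2
        rw [c2] at q1
        omega
      · simp only [pow_one, mul_re, mul_im, I_re, I_im] at a1 a2 a3 a4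
        linarith
      · simp only [I_sq, neg_mul, one_mul, neg_re, neg_im] at a1 a2 a3 a4
        linarith
      · -- last corner cell, gate 0
        rw [show (I : ℂ) ^ 3 = -I by rw [pow_succ, I_sq]; ring] at a1 a2 a3 a4
        simp only [neg_mul, mul_re, mul_im, I_re, I_im, neg_re, neg_im] at a1 a2 a3 a4
        have c1 : ((2 * M : ℕ) : ℝ) < ((k % (2 * M + 1) : ℕ) : ℝ) + 1 := by
          by_contra hc; rw [not_lt] at hc
          have := mul_le_mul_of_nonneg_right hc h0.le
          rw [mod_mul_eq hM] at this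
          linarith
        have c2 : 2 * M < k % (2 * M + 1) + 1 := by exact_mod_cast c1
        have c3 : k % (2 * M + 1) = 2 * M := by omega
        have c45 : k / (2 * M + 1) = 3 ∧ l / (2 * M + 1) = 0 := by
          clear q1 q2
          generalize k / (2 * M + 1) = sk at *
          generalize l / (2 * M + 1) = sl at *
          omega
        obtain ⟨c4, c5⟩ := c45
        right
        rw [c4, c3] at q1
        rw [c5, hj] at q2
        have : k + 1 = nc M := by rw [hnc]; omega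
        rw [this, Nat.mod_self]
        omega
    · have e : w' = I ^ (l / (2 * M + 1) - k / (2 * M + 1)) * w := by
        have h1 : (I : ℂ) ^ (k / (2 * M + 1)) * w' =
            I ^ (k / (2 * M + 1)) * (I ^ (l / (2 * M + 1) - k / (2 * M + 1)) * w) := by
          rw [← e0, ← mul_assoc, ← pow_add, Nat.add_sub_cancel' hst.le]
        exact mul_left_cancel₀ (pow_ne_zero _ I_ne_zero) h1
      rw [e] at b1 b2 b3 b4
      have hd : l / (2 * M + 1) - k / (2 * M + 1) < 4 := (Nat.sub_le _ _).trans_lt hll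
      generalize hdd : l / (2 * M + 1) - k / (2 * M + 1) = d at b1 b2 b3 b4 hd
      interval_cases d
      · exact absurd (Nat.sub_eq_zero_iff_le.1 hdd) (not_le.2 hst)
      · simp only [pow_one, mul_re, mul_im, I_re, I_im] at b1 b2 b3 b4
        have c1 : ((2 * M : ℕ) : ℝ) < ((k % (2 * M + 1) : ℕ) : ℝ) + 1 := by
          by_contra hc; rw [not_lt] at hc
          have := mul_le_mul_of_nonneg_right hc h0.le
          rw [mod_mul_eq hM] at this
          linarith
        have c2 : 2 * M < k % (2 * M + 1) + 1 := by exact_mod_cast c1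
        have c3 : k % (2 * M + 1) = 2 * M := by omega
        have c4 : l / (2 * M + 1) = k / (2 * M + 1) + 1 := by
          clear q1 q2
          generalize k / (2 * M + 1) = sk at *
          generalize l / (2 * M + 1) = sl at *
          omega
        right
        rw [c3] at q1
        rw [c4, hj, mul_add, mul_one] at q2
        rw [Nat.mod_eq_of_lt (by omega)]
        omega
      · simp only [I_sq, neg_mul, one_mul, neg_re, neg_im] at b1 b2 b3 b4
        linarith
      · rw [show (I : ℂ) ^ 3 = -I by rw [pow_succ, I_sq]; ring] at b1 b2 b3 b4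
        simp only [neg_mul, mul_re, mul_im, I_re, I_im, neg_re, neg_im] at b1 b2 b3 b4
        linarith
  · -- an inner gate
    have g1 : (1 : ℝ) ≤ ((l % (2 * M + 1) : ℕ) : ℝ) := by
      have : 1 ≤ l % (2 * M + 1) := by omega
      exact_mod_cast this
    have g2 := mul_le_mul_of_nonneg_right g1 h0.le
    have hst : w ∈ strip M := ⟨⟨by linarith, by linarith⟩, by linarith, by linarith⟩
    have hs := side_eq hM hll hkl hst hst' (hw.symm.trans hw')
    have e : w = w' := by
      have h3 := hw.symm.trans hw'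
      rw [hs] at h3
      exact mul_left_cancel₀ (pow_ne_zero _ I_ne_zero) h3
    subst e
    have c1 : ((k % (2 * M + 1) : ℕ) : ℝ) < ((l % (2 * M + 1) : ℕ) : ℝ) + 1 := by
      by_contra hc; rw [not_lt] at hc
      have := mul_le_mul_of_nonneg_right hc h0.le
      linarith
    have c2 : ((l % (2 * M + 1) : ℕ) : ℝ) < ((k % (2 * M + 1) : ℕ) : ℝ) + 2 := by
      by_contra hc; rw [not_lt] at hc
      have := mul_le_mul_of_nonneg_right hc h0.le
      linarith
    have d1 : k % (2 * M + 1) < l % (2 * M + 1) + 1 := by exact_mod_cast c1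
    have d2 : l % (2 * M + 1) < k % (2 * M + 1) + 2 := by exact_mod_cast c2
    rw [hs] at q2
    rcases Nat.lt_or_ge (k % (2 * M + 1)) (l % (2 * M + 1)) with h4 | h4
    · right
      have h5 : k + 1 = l := by omega
      rw [h5, Nat.mod_eq_of_lt hl]
    · left
      omega

/-- The region of the `k`-th section: the cell minus the gate boxes. -/
noncomputable def sreg (M k : ℕ) : Set ℂ := cell M k \ ⋃ l, gbox M l

theorem disjoint_sreg (hM : 0 < M) (hk : k < nc M) (hl : l < nc M) (h : k ≠ l) :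
    Disjoint (sreg M k) (sreg M l) :=
  (disjoint_cell hM hk hl h).mono sdiff_subset sdiff_subset

theorem disjoint_sreg_gbox (k l : ℕ) : Disjoint (sreg M k) (gbox M l) := by
  rw [Set.disjoint_left]
  intro z hz hz'
  exact hz.2 (mem_iUnion.2 ⟨l, hz'⟩)

theorem gbox_mod (M l : ℕ) : gbox M (l % nc M) = gbox M l := by
  have key : ∀ q r : ℕ, gbox M (r + q * nc M) = gbox M r := by
    intro q r
    induction q with
    | zero => simp
    | succ q ih => rw [Nat.succ_mul, ← add_assoc, gbox_add_nc, ih]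
  conv_rhs => rw [← Nat.div_add_mod l (nc M), add_comm, mul_comm]
  exact (key _ _).symm

theorem cell_subset (hM : 0 < M) (hk : k < nc M) :
    cell M k ⊆ sreg M k ∪ (gbox M k ∪ gbox M (k + 1)) := by
  intro z hz
  by_cases h : z ∈ ⋃ l, gbox M l
  · obtain ⟨l, hl⟩ := mem_iUnion.1 h
    have hn : 0 < nc M := by unfold nc; omega
    have hl' : z ∈ gbox M (l % nc M) := by rw [gbox_mod]; exact hl
    rcases gbox_cell hM hk (Nat.mod_lt l hn) ⟨z, hl', hz⟩ with h1 | h1
    · right; left
      rw [← h1]; exact hl'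
    · right; right
      rw [h1, gbox_mod] at hl'
      exact hl'
  · exact Or.inl ⟨hz, h⟩

/-! ### rigid motions -/

/-- The translation part of the rigid motion of the `k`-th cell. -/
noncomputable def tr (M k : ℕ) : ℂ :=
  I ^ (k / (2 * M + 1)) * (I * (((k % (2 * M + 1) : ℕ) : ℝ) * ms M : ℝ))

theorem csq_add {z w b : ℂ} {r : ℝ} : w + b ∈ csq (z + b) r ↔ w ∈ csq z r := by
  simp [mem_csq]

theorem move_center (u z : ℂ) (x y t : ℝ) (h : z = ⟨x, y⟩) :
    u * ⟨x, y + t⟩ = u * z + u * (I * (t : ℝ)) := by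
  subst h
  rw [← mul_add]
  congr 1
  apply Complex.ext <;> simp

theorem cellC_eq (M k : ℕ) : cellC M k = I ^ (k / (2 * M + 1)) * cellC M 0 + tr M k := by
  unfold cellC tr
  rw [Nat.zero_div, Nat.zero_mod, pow_zero, one_mul, ← mul_add]
  congr 1
  apply Complex.ext <;> simp

theorem gateC_eq (M k : ℕ) : gateC M k = I ^ (k / (2 * M + 1)) * gateC M 0 + tr M k := by
  unfold gateC tr
  rw [Nat.zero_div, Nat.zero_mod, pow_zero, one_mul, ← mul_add]
  congr 1
  apply Complex.ext <;> simp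

theorem gateC_succ_eq (hM : 0 < M) (h : k % (2 * M + 1) ≠ 2 * M) :
    gateC M (k + 1) = I ^ (k / (2 * M + 1)) * gateC M 1 + tr M k := by
  rw [gateC_succ hM, gateC_eq]
  have h1 : gateC M 1 = gateC M 0 + disp M 0 := gateC_succ hM 0
  rw [h1]
  have h2 : disp M k = I ^ (k / (2 * M + 1)) * disp M 0 := by
    unfold disp
    rw [if_neg h, if_neg, Nat.zero_div, pow_zero, one_mul]
    rw [Nat.zero_mod]; omega
  rw [h2]; ring

theorem disp_straight (hM : 0 < M) (h : k % (2 * M + 1) ≠ 2 * M) :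
    disp M k = I ^ (k / (2 * M + 1)) * disp M 0 := by
  unfold disp
  rw [if_neg h, if_neg, Nat.zero_div, pow_zero, one_mul]
  rw [Nat.zero_mod]; omega

theorem move_cell (M k : ℕ) {z : ℂ} :
    I ^ (k / (2 * M + 1)) * z + tr M k ∈ cell M k ↔ z ∈ cell M 0 := by
  unfold cell
  rw [cellC_eq M k, csq_add, csq_I_pow]

theorem move_gbox (M k : ℕ) {z : ℂ} :
    I ^ (k / (2 * M + 1)) * z + tr M k ∈ gbox M k ↔ z ∈ gbox M 0 := by
  unfold gbox
  rw [gateC_eq M k, csq_add, csq_I_pow]

theorem move_gbox_succ (hM : 0 < M) (h : k % (2 * M + 1) ≠ 2 * M) {z : ℂ} :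
    I ^ (k / (2 * M + 1)) * z + tr M k ∈ gbox M (k + 1) ↔ z ∈ gbox M 1 := by
  unfold gbox
  rw [gateC_succ_eq hM h, csq_add, csq_I_pow]

end Vale.Agent.P148.R2.N
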